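import Crest.Agent.X212.Sw21.IxB
import Crest.Agent.X212.Ax1.IxA
import Crest.Agent.X212.Ax1.IxN
import Crest.Agent.X212.Add68.Hn
import Crest.Agent.X212.Add68.Ixa
import Crest.Agent.X212.Mp86.Dc
import Crest.Agent.X212.Dm83.Int
import Crest.Agent.X212.Dm83.Gau
import Crest.Agent.X212.Dm83.Geo
import Crest.Agent.X212.Dm83.Mir
import Crest.Agent.X212.Glu27.Loc
import Crest.Agent.X212.Glu27.Main
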